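import Vale.Agent.P196.S0.Simple

/-!
# P196, block S-FLUX: the flux homomorphism as a transfer

Letters are `X σ E a = dP σ * eP E a * (dP σ)⁻¹`; a word is evaluated after restricting the base
sets of its letters.  The flux of a word with trivial product is the transfer through the
half plane `x < y` of the word restricted to the half plane `0 ≤ x + y`.
-/

namespace Vale.Agent.P196.H513

open Equiv Vale.Agent.P196.S0

/-! ## Transfer -/

section transfer

variable {Ω : Type*}

open Classical in
/-- Integer valued indicator function. -/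
noncomputable def chi (A : Set Ω) (z : Ω) : ℤ := if z ∈ A then 1 else 0

theorem chi_eq_of_iff {A : Set Ω} {z z' : Ω} (h : z ∈ A ↔ z' ∈ A) : chi A z = chi A z' := by
  by_cases h1 : z ∈ A
  · rw [chi, chi, if_pos h1, if_pos (h.1 h1)]
  · rw [chi, chi, if_neg h1, if_neg (fun h2 => h1 (h.2 h2))]

/-- `g` moves finitely many points across `A`. -/
def Cm (A : Set Ω) (g : Perm Ω) : Prop := (Function.support fun z => chi A (g z) - chi A z).Finite

/-- Net number of points moved into `A`. -/
noncomputable def trans (A : Set Ω) (g : Perm Ω) : ℤ := ∑ᶠ z, (chi A (g z) - chi A z)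

theorem support_comp (F : Ω → ℤ) (h : Perm Ω) :
    (Function.support fun z => F (h z)) = h ⁻¹' (Function.support F) := rfl

theorem Cm.mul {A : Set Ω} {g h : Perm Ω} (hg : Cm A g) (hh : Cm A h) : Cm A (g * h) := by
  have h1 : (Function.support fun z => chi A (g (h z)) - chi A (h z)).Finite := by
    rw [support_comp (fun z => chi A (g z) - chi A z) h]
    exact Set.Finite.preimage h.injective.injOn hg
  refine (h1.union hh).subset ?_
  intro z hz
  simp only [Function.mem_support, Set.mem_union, Perm.mul_apply] at hz ⊢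
  by_contra hcon
  push Not at hcon
  omega

theorem trans_mul {A : Set Ω} {g h : Perm Ω} (hg : Cm A g) (hh : Cm A h) :
    trans A (g * h) = trans A g + trans A h := by
  have h1 : (Function.support fun z => chi A (g (h z)) - chi A (h z)).Finite := by
    rw [support_comp (fun z => chi A (g z) - chi A z) h]
    exact Set.Finite.preimage h.injective.injOn hg
  have e1 : trans A (g * h) =
      ∑ᶠ z, ((chi A (g (h z)) - chi A (h z)) + (chi A (h z) - chi A z)) := by
    unfold trans
    apply finsum_congr
    intro z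
    rw [Perm.mul_apply]
    ring
  rw [e1, finsum_add_distrib h1 hh]
  congr 1
  exact finsum_comp_equiv (f := fun z => chi A (g z) - chi A z) h

theorem Cm_one (A : Set Ω) : Cm A 1 := by simp [Cm, Function.support]

theorem trans_one (A : Set Ω) : trans A 1 = 0 := by simp [trans]

theorem Cm.inv {A : Set Ω} {g : Perm Ω} (hg : Cm A g) : Cm A g⁻¹ := by
  have h1 : (Function.support fun z => chi A (g⁻¹ z) - chi A z) =
      (g⁻¹ : Perm Ω) ⁻¹' (Function.support fun z => chi A (g z) - chi A z) := by
    ext z
    have e : g (g⁻¹ z) = z := by rw [← Perm.mul_apply, mul_inv_cancel]; rfl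
    simp only [Function.mem_support, Set.mem_preimage, e]
    omega
  unfold Cm
  rw [h1]
  exact Set.Finite.preimage (g⁻¹ : Perm Ω).injective.injOn hg

theorem trans_inv {A : Set Ω} {g : Perm Ω} (hg : Cm A g) : trans A g⁻¹ = - trans A g := by
  have := trans_mul hg hg.inv
  rw [mul_inv_cancel, trans_one] at this
  omega

/-- A finitely supported permutation has zero transfer. -/
theorem trans_eq_zero_of_finite {A : Set Ω} {g : Perm Ω} (hg : {z | g z ≠ z}.Finite) :
    trans A g = 0 := by
  classical
  unfold trans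
  rw [finsum_eq_sum_of_support_subset (s := hg.toFinset)]
  · rw [Finset.sum_sub_distrib, sub_eq_zero]
    exact Equiv.Perm.sum_comp g hg.toFinset (fun z => chi A z) (by intro z hz; simpa using hz)
  · intro z hz
    simp only [Function.mem_support] at hz
    simp only [Set.Finite.coe_toFinset, Set.mem_ofPred_eq]
    intro h
    apply hz
    rw [h, sub_self]

end transfer

/-! ## Letters and restricted words -/

variable {ι : Type*}

/-- A letter: offsets of the floors, base set, floor permutation. -/
structure Letter (ι : Type*) where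
  /-- offsets -/
  σ : ι → Z2
  /-- base set -/
  E : Set Z2
  /-- floor permutation -/
  a : Perm ι

/-- The permutation `(u + σ f, f) ↦ (u + σ (a f), a f)` for `u ∈ E`. -/
noncomputable def X (σ : ι → Z2) (E : Set Z2) (a : Perm ι) : Perm (Z2 × ι) :=
  dP σ * eP E a * (dP σ)⁻¹

theorem X_apply_mem {σ : ι → Z2} {E : Set Z2} {a : Perm ι} {p : Z2} {f : ι} (h : p - σ f ∈ E) :
    X σ E a (p, f) = (p - σ f + σ (a f), a f) := by
  simp only [X, dP_inv, Perm.mul_apply, dP_apply, Pi.neg_apply, ← sub_eq_add_neg]
  rw [eP_apply_mem h, dP_apply]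

theorem X_apply_notMem {σ : ι → Z2} {E : Set Z2} {a : Perm ι} {p : Z2} {f : ι}
    (h : p - σ f ∉ E) : X σ E a (p, f) = (p, f) := by
  simp only [X, dP_inv, Perm.mul_apply, dP_apply, Pi.neg_apply, ← sub_eq_add_neg]
  rw [eP_apply_notMem h, dP_apply]
  simp

theorem X_inv (σ : ι → Z2) (E : Set Z2) (a : Perm ι) : (X σ E a)⁻¹ = X σ E a⁻¹ := by
  have h : (eP E a)⁻¹ = eP E a⁻¹ := by
    rw [← ePHom_apply, ← ePHom_apply, map_inv]
  simp only [X, mul_inv_rev, inv_inv, h, mul_assoc]

/-- The word `w` with the base set of the `i`-th letter restricted to `D i`. -/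
noncomputable def wd : List (Letter ι) → (ℕ → Set Z2) → Perm (Z2 × ι)
  | [], _ => 1
  | l :: w, D => X l.σ (l.E ∩ D 0) l.a * wd w (fun i => D (i + 1))

@[simp] theorem wd_nil (D : ℕ → Set Z2) : wd ([] : List (Letter ι)) D = 1 := rfl

theorem wd_cons (l : Letter ι) (w : List (Letter ι)) (D : ℕ → Set Z2) :
    wd (l :: w) D = X l.σ (l.E ∩ D 0) l.a * wd w (fun i => D (i + 1)) := rfl

theorem wd_append_const (w w' : List (Letter ι)) (D : Set Z2) :
    wd (w ++ w') (fun _ => D) = wd w (fun _ => D) * wd w' (fun _ => D) := by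
  induction w with
  | nil => simp
  | cons l w ih => rw [List.cons_append, wd_cons, wd_cons, ih, mul_assoc]

/-- Product of a word. -/
noncomputable def wprod (w : List (Letter ι)) : Perm (Z2 × ι) := wd w (fun _ => Set.univ)

theorem wprod_append (w w' : List (Letter ι)) : wprod (w ++ w') = wprod w * wprod w' :=
  wd_append_const w w' _

theorem wprod_eq (w : List (Letter ι)) : wprod w = (w.map fun l => X l.σ l.E l.a).prod := by
  induction w with
  | nil => rfl
  | cons l w ih =>
    unfold wprod at ih ⊢
    rw [wd_cons, ih, List.map_cons, List.prod_cons, Set.inter_univ]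

/-- All offsets are bounded by `r`. -/
def Bd (r : ℤ) (w : List (Letter ι)) : Prop := ∀ l ∈ w, ∀ f, |(l.σ f).1| ≤ r ∧ |(l.σ f).2| ≤ r

theorem Bd.tail {r : ℤ} {l : Letter ι} {w : List (Letter ι)} (h : Bd r (l :: w)) : Bd r w :=
  fun l' hl' => h l' (List.mem_cons_of_mem _ hl')

/-- Displacement of one letter. -/
theorem X_disp {r : ℤ} {σ : ι → Z2} (h : ∀ f, |(σ f).1| ≤ r ∧ |(σ f).2| ≤ r) (E : Set Z2)
    (a : Perm ι) (z : Z2 × ι) :
    |(X σ E a z).1.1 - z.1.1| ≤ 2 * r ∧ |(X σ E a z).1.2 - z.1.2| ≤ 2 * r := by
  obtain ⟨p, f⟩ := z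
  have h1 := h f
  have h2 := h (a f)
  simp only [abs_le] at h1 h2 ⊢
  by_cases hp : p - σ f ∈ E
  · rw [X_apply_mem hp]
    simp only [Prod.fst_add, Prod.snd_add, Prod.fst_sub, Prod.snd_sub]
    omega
  · rw [X_apply_notMem hp]
    simp only [sub_self]
    omega

/-- Displacement of a restricted word. -/
theorem wd_disp {r : ℤ} {w : List (Letter ι)} (h : Bd r w) (D : ℕ → Set Z2) (z : Z2 × ι) :
    |(wd w D z).1.1 - z.1.1| ≤ 2 * r * w.length ∧ |(wd w D z).1.2 - z.1.2| ≤ 2 * r * w.length := by
  induction w generalizing D with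
  | nil => simp
  | cons l w ih =>
    have h1 := ih h.tail (fun i => D (i + 1))
    have h2 := X_disp (h l List.mem_cons_self) (l.E ∩ D 0) l.a (wd w (fun i => D (i + 1)) z)
    rw [wd_cons, Perm.mul_apply]
    simp only [List.length_cons, Nat.cast_add, Nat.cast_one]
    simp only [abs_le] at h1 h2 ⊢
    have e : 2 * r * ((w.length : ℤ) + 1) = 2 * r * w.length + 2 * r := by ring
    rw [e]
    omega

/-- `u` is within distance `R` of `p`. -/
def Near (R : ℤ) (p u : Z2) : Prop := |u.1 - p.1| ≤ R ∧ |u.2 - p.2| ≤ R

/-- Locality: a restricted word at `z` only depends on the regions near `z`. -/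
theorem wd_congr {r : ℤ} {w : List (Letter ι)} (h : Bd r w) (hr : 0 ≤ r) (D D' : ℕ → Set Z2)
    (z : Z2 × ι) (hD : ∀ i, ∀ u, Near (2 * r * w.length + r) z.1 u → (u ∈ D i ↔ u ∈ D' i)) :
    wd w D z = wd w D' z := by
  induction w generalizing D D' with
  | nil => rfl
  | cons l w ih =>
    have hlen : (2 * r * ((l :: w).length : ℤ) + r) = 2 * r * w.length + 2 * r + r := by
      simp only [List.length_cons, Nat.cast_add, Nat.cast_one]; ring
    rw [hlen] at hD
    have e1 : wd w (fun i => D (i + 1)) z = wd w (fun i => D' (i + 1)) z := by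
      refine ih h.tail _ _ ?_
      intro i u hu
      refine hD (i + 1) u ⟨?_, ?_⟩
      · have := hu.1; omega
      · have := hu.2; omega
    rw [wd_cons, wd_cons, Perm.mul_apply, Perm.mul_apply, e1]
    have hd := wd_disp h.tail (fun i => D' (i + 1)) z
    generalize wd w (fun i => D' (i + 1)) z = y at hd
    obtain ⟨q, f⟩ := y
    have hσ := h l List.mem_cons_self f
    have hnear : Near (2 * r * w.length + 2 * r + r) z.1 (q - l.σ f) := by
      simp only [Near, Prod.fst_sub, Prod.snd_sub]
      simp only [abs_le] at hd hσ ⊢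
      omega
    have hiff := hD 0 _ hnear
    by_cases hE : q - l.σ f ∈ l.E
    · by_cases h0 : q - l.σ f ∈ D 0
      · rw [X_apply_mem (E := l.E ∩ D 0) ⟨hE, h0⟩, X_apply_mem (E := l.E ∩ D' 0) ⟨hE, hiff.1 h0⟩]
      · rw [X_apply_notMem (fun hh => h0 hh.2), X_apply_notMem (fun hh => h0 (hiff.2 hh.2))]
    · rw [X_apply_notMem (fun hh => hE hh.1), X_apply_notMem (fun hh => hE hh.1)]

theorem wd_empty (w : List (Letter ι)) : wd w (fun _ => ∅) = 1 := by
  induction w with
  | nil => rfl
  | cons l w ih =>
    rw [wd_cons, ih, mul_one]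
    ext1 ⟨p, f⟩
    rw [X_apply_notMem (by simp)]
    rfl

/-- If all regions miss a neighbourhood of `z`, the word fixes `z`. -/
theorem wd_eq_self {r : ℤ} {w : List (Letter ι)} (h : Bd r w) (hr : 0 ≤ r) (D : ℕ → Set Z2)
    (z : Z2 × ι) (hD : ∀ i, ∀ u, Near (2 * r * w.length + r) z.1 u → u ∉ D i) :
    wd w D z = z := by
  rw [wd_congr h hr D (fun _ => ∅) z (fun i u hu => by simpa using hD i u hu), wd_empty]
  rfl

/-- If all regions contain a neighbourhood of `z`, a word with trivial product fixes `z`. -/
theorem wd_eq_self_of_univ {r : ℤ} {w : List (Letter ι)} (h : Bd r w) (hr : 0 ≤ r)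
    (hw : wprod w = 1) (D : ℕ → Set Z2)
    (z : Z2 × ι) (hD : ∀ i, ∀ u, Near (2 * r * w.length + r) z.1 u → u ∈ D i) :
    wd w D z = z := by
  rw [wd_congr h hr D (fun _ => Set.univ) z (fun i u hu => by simpa using hD i u hu)]
  have : wd w (fun _ => Set.univ) = 1 := hw
  rw [this]
  rfl

/-! ## Flux -/

/-- The half plane above the diagonal. -/
def up (ι : Type*) : Set (Z2 × ι) := {z | z.1.1 < z.1.2}

/-- The north east half plane. -/
def ne : Set Z2 := {u | 0 ≤ u.1 + u.2}

/-- The flux of a word (meaningful if its product is trivial). -/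
noncomputable def flux (w : List (Letter ι)) : ℤ := trans (up ι) (wd w (fun _ => ne))

/-- A point moved across the diagonal is close to the diagonal. -/
theorem near_diag {r : ℤ} {w : List (Letter ι)} (h : Bd r w) (D : ℕ → Set Z2) {z : Z2 × ι}
    (hz : chi (up ι) (wd w D z) - chi (up ι) z ≠ 0) :
    |z.1.1 - z.1.2| ≤ 2 * (2 * r * w.length) := by
  have hd := wd_disp h D z
  by_contra hcon
  apply hz
  rw [sub_eq_zero]
  apply chi_eq_of_iff
  simp only [up, Set.mem_ofPred_eq]
  simp only [abs_le] at hd hcon
  constructor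
  · intro h1
    by_contra h2
    apply hcon
    omega
  · intro h1
    by_contra h2
    apply hcon
    omega

theorem ne_zero_of_chi {g : Perm (Z2 × ι)} {z : Z2 × ι}
    (hz : chi (up ι) (g z) - chi (up ι) z ≠ 0) : g z ≠ z := by
  intro h
  rw [h, sub_self] at hz
  exact hz rfl

theorem flux_support {r : ℤ} {w : List (Letter ι)} (h : Bd r w) (hr : 0 ≤ r) (hw : wprod w = 1)
    {z : Z2 × ι} (hz : chi (up ι) (wd w (fun _ => ne) z) - chi (up ι) z ≠ 0) :
    |z.1.1| ≤ 2 * (2 * r * w.length + r) ∧ |z.1.2| ≤ 2 * (2 * r * w.length + r) := by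
  have h1 := near_diag h _ hz
  have h2 := ne_zero_of_chi hz
  set R := 2 * r * (w.length : ℤ) + r with hR
  have hL : 0 ≤ 2 * r * (w.length : ℤ) := by positivity
  have h3 : z.1.1 + z.1.2 ≤ 2 * R := by
    by_contra hcon
    apply h2
    refine wd_eq_self_of_univ h hr hw _ z ?_
    intro i u hu
    simp only [ne, Set.mem_ofPred_eq]
    have := hu.1
    have := hu.2
    rw [abs_le] at *
    omega
  have h4 : - (2 * R) ≤ z.1.1 + z.1.2 := by
    by_contra hcon
    apply h2
    refine wd_eq_self h hr _ z ?_
    intro i u hu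
    simp only [ne, Set.mem_ofPred_eq]
    have := hu.1
    have := hu.2
    rw [abs_le] at *
    omega
  simp only [abs_le] at h1 ⊢
  omega

variable [Finite ι]

theorem finite_box (R : ℤ) : {z : Z2 × ι | |z.1.1| ≤ R ∧ |z.1.2| ≤ R}.Finite := by
  have h1 : ((Set.Icc (-R) R ×ˢ Set.Icc (-R) R) ×ˢ (Set.univ : Set ι)).Finite :=
    ((Set.finite_Icc _ _).prod (Set.finite_Icc _ _)).prod Set.finite_univ
  refine h1.subset ?_
  rintro ⟨⟨x, y⟩, f⟩ hz
  simp only [Set.mem_ofPred_eq, abs_le] at hz
  simp only [Set.mem_prod, Set.mem_Icc, Set.mem_univ, and_true]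
  exact hz

theorem exists_bd (w : List (Letter ι)) : ∃ r : ℤ, 0 ≤ r ∧ Bd r w := by
  induction w with
  | nil => exact ⟨0, le_rfl, fun l hl => by simp at hl⟩
  | cons l w ih =>
    obtain ⟨r, hr, h⟩ := ih
    obtain ⟨r1, h1⟩ : ∃ r1 : ℤ, ∀ f, |(l.σ f).1| ≤ r1 := by
      obtain ⟨r1, h1⟩ := (Set.finite_range fun f => |(l.σ f).1|).bddAbove
      exact ⟨r1, fun f => h1 ⟨f, rfl⟩⟩
    obtain ⟨r2, h2⟩ : ∃ r2 : ℤ, ∀ f, |(l.σ f).2| ≤ r2 := by
      obtain ⟨r2, h2⟩ := (Set.finite_range fun f => |(l.σ f).2|).bddAbove
      exact ⟨r2, fun f => h2 ⟨f, rfl⟩⟩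
    refine ⟨max r (max r1 r2), le_max_of_le_left hr, ?_⟩
    intro l' hl' f
    rcases List.mem_cons.1 hl' with rfl | hl'
    · exact ⟨(h1 f).trans (by simp), (h2 f).trans (by simp)⟩
    · exact ⟨(h l' hl' f).1.trans (by simp), (h l' hl' f).2.trans (by simp)⟩

theorem flux_cm {w : List (Letter ι)} (hw : wprod w = 1) : Cm (up ι) (wd w (fun _ => ne)) := by
  obtain ⟨r, hr, h⟩ := exists_bd w
  refine (finite_box (ι := ι) (2 * (2 * r * w.length + r))).subset ?_
  intro z hz
  exact flux_support h hr hw hz

/-- **(F1)** the flux is additive on words with trivial product. -/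
theorem flux_append {w w' : List (Letter ι)} (hw : wprod w = 1) (hw' : wprod w' = 1) :
    flux (w ++ w') = flux w + flux w' := by
  unfold flux
  rw [wd_append_const, trans_mul (flux_cm hw) (flux_cm hw')]

/-- **(F3)** the crossing number at the north east of a trivial word restricted to bounded
regions containing a large box around the origin is minus the flux. -/
theorem cross_eq_neg_flux {r : ℤ} {w : List (Letter ι)} (h : Bd r w) (hr : 0 ≤ r)
    (hw : wprod w = 1) (D : ℕ → Set Z2) (ρ : ℤ) (hρ : 5 * (2 * r * w.length + r) ≤ ρ)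
    (hD : ∀ i, ∀ u : Z2, |u.1| ≤ ρ → |u.2| ≤ ρ → u ∈ D i)
    (ρ' : ℤ) (hD' : ∀ i, ∀ u ∈ D i, |u.1| ≤ ρ' ∧ |u.2| ≤ ρ') :
    ∑ᶠ z : Z2 × ι, (open Classical in if 0 ≤ z.1.1 ∧ 0 ≤ z.1.2 then
      chi (up ι) (wd w D z) - chi (up ι) z else 0) = - flux w := by
  classical
  set R := 2 * r * (w.length : ℤ) + r with hR
  have hL : 0 ≤ 2 * r * (w.length : ℤ) := by positivity
  have hR0 : 0 ≤ R := by omega
  -- the finite permutation
  set g := wd w (fun i => D i ∩ ne) with hg
  set v := wd w D with hv
  have hgfin : {z | g z ≠ z}.Finite := by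
    refine (finite_box (ι := ι) (ρ' + R)).subset ?_
    intro z hz
    simp only [Set.mem_ofPred_eq] at hz ⊢
    by_contra hcon
    apply hz
    refine wd_eq_self h hr _ z ?_
    intro i u hu hu'
    have h1 := hD' i u hu'.1
    have h2 := hu.1
    have h3 := hu.2
    apply hcon
    simp only [abs_le] at h1 h2 h3 ⊢
    omega
  have hgt := trans_eq_zero_of_finite (A := up ι) hgfin
  -- pointwise decomposition
  set G := fun z => chi (up ι) (g z) - chi (up ι) z with hG
  set F := fun z => chi (up ι) (wd w (fun _ => ne) z) - chi (up ι) z with hF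
  set V := fun z : Z2 × ι => (if 0 ≤ z.1.1 ∧ 0 ≤ z.1.2 then
      chi (up ι) (v z) - chi (up ι) z else 0) with hV
  have key : ∀ z, G z = F z + V z := by
    intro z
    by_cases hnear : |z.1.1| ≤ ρ - R ∧ |z.1.2| ≤ ρ - R
    · -- near the origin
      have e1 : g z = wd w (fun _ => ne) z := by
        refine wd_congr h hr _ _ z ?_
        intro i u hu
        have hu' : u ∈ D i := by
          have h2 := hu.1
          have h3 := hu.2
          apply hD i u
          · simp only [abs_le] at hnear h2 ⊢; omega
          · simp only [abs_le] at hnear h3 ⊢; omega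
        simp [hu']
      have e2 : v z = z := by
        refine wd_eq_self_of_univ h hr hw D z ?_
        intro i u hu
        have h2 := hu.1
        have h3 := hu.2
        apply hD i u
        · simp only [abs_le] at hnear h2 ⊢; omega
        · simp only [abs_le] at hnear h3 ⊢; omega
      simp only [hG, hF, hV, e1, e2, sub_self, ite_self, add_zero]
    · -- far from the origin
      have hF0 : F z = 0 := by
        by_contra hne
        have := flux_support h hr hw hne
        apply hnear
        simp only [abs_le] at this ⊢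
        omega
      rw [hF0, zero_add]
      by_cases hne : 0 ≤ z.1.1 ∧ 0 ≤ z.1.2
      · -- north east quadrant
        have hVz : V z = chi (up ι) (v z) - chi (up ι) z := by simp only [hV, hne, and_self, if_true]
        rw [hVz]
        by_cases hdiag : |z.1.1 - z.1.2| ≤ 2 * (2 * r * w.length)
        · have e1 : g z = v z := by
            refine wd_congr h hr _ _ z ?_
            intro i u hu
            have h2 := hu.1
            have h3 := hu.2
            have : u ∈ ne := by
              simp only [ne, Set.mem_ofPred_eq]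
              simp only [abs_le] at h2 h3 hnear hdiag
              omega
            simp [this]
          simp only [hG, e1]
        · have e1 : G z = 0 := by
            by_contra h0
            exact hdiag (near_diag h _ h0)
          have e2 : chi (up ι) (v z) - chi (up ι) z = 0 := by
            by_contra h0
            exact hdiag (near_diag h _ h0)
          rw [e1, e2]
      · have hVz : V z = 0 := by simp only [hV, hne, if_false]
        rw [hVz]
        by_contra h0
        have h1 := near_diag h _ h0
        apply ne_zero_of_chi h0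
        refine wd_eq_self h hr _ z ?_
        intro i u hu hu'
        have h2 := hu.1
        have h3 := hu.2
        have h4 : 0 ≤ u.1 + u.2 := hu'.2
        simp only [abs_le] at h1 h2 h3 hnear
        omega
  have hFfin : (Function.support F).Finite := flux_cm hw
  have hVfin : (Function.support V).Finite := by
    have hGfin : (Function.support G).Finite := by
      refine hgfin.subset ?_
      intro z hz
      exact ne_zero_of_chi hz
    refine (hGfin.union hFfin).subset ?_
    intro z hz
    simp only [Function.mem_support, Set.mem_union] at hz ⊢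
    by_contra hcon
    push Not at hcon
    have := key z
    omega
  have hsum : trans (up ι) g = flux w + ∑ᶠ z, V z := by
    have : trans (up ι) g = ∑ᶠ z, (F z + V z) := finsum_congr key
    rw [this, finsum_add_distrib hFfin hVfin]
    rfl
  rw [hgt] at hsum
  show ∑ᶠ z, V z = - flux w
  omega

end Vale.Agent.P196.H513
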