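import Vale.Agent.P196.H513.Flux

/-!
# P196, final pigeonhole: the kernel is finitely generated
-/

namespace Vale.Agent.P196.H513

open Equiv Vale.Agent.P196.S0

/-- If all finite subsets of `S` have at most `B` elements, then `S` is finite. -/
theorem finite_of_card_le {α : Type*} (S : Set α) (B : ℕ)
    (h : ∀ F : Finset α, (F : Set α) ⊆ S → F.card ≤ B) : S.Finite := by
  by_contra hinf
  obtain ⟨F, hF, hc⟩ := Set.Infinite.exists_subset_card_eq hinf (B + 1)
  have := h F hF
  omega

section words

variable {E A L : Type*} [Group E] [Group A]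

/-- Value of a word. -/
def ev (val : L → E) (w : List L) : E := (w.map val).prod

theorem ev_append (val : L → E) (w w' : List L) : ev val (w ++ w') = ev val w * ev val w' := by
  simp [ev]

/-- Inverse word. -/
def winv (inv : L → L) (w : List L) : List L := (w.map inv).reverse

theorem ev_winv (val : L → E) (inv : L → L) (hinv : ∀ l, val (inv l) = (val l)⁻¹) (w : List L) :
    ev val (winv inv w) = (ev val w)⁻¹ := by
  induction w with
  | nil => simp [ev, winv]
  | cons l w ih =>
    have e1 : winv inv (l :: w) = winv inv w ++ [inv l] := by simp [winv]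
    rw [e1, ev_append, ih]
    simp [ev, hinv]

/-- Every element of the closure of the letters is the value of a word. -/
theorem exists_word (val : L → E) (inv : L → L) (hinv : ∀ l, val (inv l) = (val l)⁻¹)
    (hgen : Subgroup.closure (Set.range val) = ⊤) (g : E) : ∃ w, ev val w = g := by
  have hg : g ∈ Subgroup.closure (Set.range val) := by rw [hgen]; trivial
  induction hg using Subgroup.closure_induction with
  | mem x hx => obtain ⟨l, rfl⟩ := hx; exact ⟨[l], by simp [ev]⟩
  | one => exact ⟨[], rfl⟩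
  | mul x y _ _ hx hy =>
    obtain ⟨w, rfl⟩ := hx
    obtain ⟨w', rfl⟩ := hy
    exact ⟨w ++ w', ev_append _ _ _⟩
  | inv x _ hx =>
    obtain ⟨w, rfl⟩ := hx
    exact ⟨winv inv w, ev_winv _ _ hinv _⟩

/-- **Final pigeonhole.** If the flux is additive on words with trivial image, and the values of
trivial words with zero flux are finite in number, then the kernel is finitely generated. -/
theorem ker_fg_of_finite (π : E →* A) (val : L → E) (inv : L → L)
    (hinv : ∀ l, val (inv l) = (val l)⁻¹) (hgen : Subgroup.closure (Set.range val) = ⊤)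
    (flux : List L → ℤ)
    (hadd : ∀ w w', π (ev val w) = 1 → π (ev val w') = 1 → flux (w ++ w') = flux w + flux w')
    (hneg : ∀ w, π (ev val w) = 1 → flux (winv inv w) = - flux w)
    (hfin : {k | ∃ w, π (ev val w) = 1 ∧ flux w = 0 ∧ ev val w = k}.Finite) :
    π.ker.FG := by
  classical
  -- the subgroup of fluxes
  have htriv : ∀ w, π (ev val w) = 1 → π (ev val (winv inv w)) = 1 := by
    intro w hw
    rw [ev_winv val inv hinv, map_inv, hw, inv_one]
  have hnil : π (ev val []) = 1 := by simp [ev]
  have hflux0 : flux [] = 0 := by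
    have := hadd [] [] hnil hnil
    simp only [List.append_nil] at this
    omega
  let I : AddSubgroup ℤ :=
    { carrier := {n | ∃ w, π (ev val w) = 1 ∧ flux w = n}
      zero_mem' := ⟨[], hnil, hflux0⟩
      add_mem' := by
        rintro a b ⟨w, hw, rfl⟩ ⟨w', hw', rfl⟩
        refine ⟨w ++ w', ?_, hadd w w' hw hw'⟩
        rw [ev_append, map_mul, hw, hw', mul_one]
      neg_mem' := by
        rintro a ⟨w, hw, rfl⟩
        exact ⟨winv inv w, htriv w hw, hneg w hw⟩ }
  obtain ⟨d, hd⟩ := Int.subgroup_cyclic I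
  have hdI : d ∈ I := by rw [hd]; exact AddSubgroup.mem_closure_singleton_self d
  obtain ⟨w0, hw0, hf0⟩ := hdI
  -- powers of `w0`
  have hpow : ∀ j : ℤ, ∃ w, ev val w = (ev val w0) ^ j ∧ flux w = j * d := by
    have hnat : ∀ j : ℕ, ∃ w, ev val w = (ev val w0) ^ j ∧ flux w = j * d := by
      intro j
      induction j with
      | zero => exact ⟨[], by simp [ev], by simpa using hflux0⟩
      | succ j ih =>
        obtain ⟨w, hw, hf⟩ := ih
        have ht : π (ev val w) = 1 := by rw [hw, map_pow, hw0, one_pow]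
        refine ⟨w ++ w0, ?_, ?_⟩
        · rw [ev_append, hw, pow_succ]
        · rw [hadd w w0 ht hw0, hf, hf0]; push_cast; ring
    intro j
    rcases Int.eq_nat_or_neg j with ⟨n, rfl | rfl⟩
    · obtain ⟨w, hw, hf⟩ := hnat n
      exact ⟨w, by rw [hw, zpow_natCast], hf⟩
    · obtain ⟨w, hw, hf⟩ := hnat n
      have ht : π (ev val w) = 1 := by rw [hw, map_pow, hw0, one_pow]
      refine ⟨winv inv w, ?_, ?_⟩
      · rw [ev_winv val inv hinv, hw, zpow_neg, zpow_natCast]
      · rw [hneg w ht, hf]; ring
  refine (Subgroup.fg_iff _).2 ⟨{k | ∃ w, π (ev val w) = 1 ∧ flux w = 0 ∧ ev val w = k} ∪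
    {ev val w0}, ?_, hfin.union (Set.finite_singleton _)⟩
  apply le_antisymm
  · rw [Subgroup.closure_le]
    rintro k (⟨w, hw, _, rfl⟩ | rfl)
    · exact hw
    · exact hw0
  · intro k hk
    rw [MonoidHom.mem_ker] at hk
    obtain ⟨w, rfl⟩ := exists_word val inv hinv hgen k
    have hI : flux w ∈ I := ⟨w, hk, rfl⟩
    rw [hd, AddSubgroup.mem_closure_singleton] at hI
    obtain ⟨j, hj⟩ := hI
    obtain ⟨v, hv, hfv⟩ := hpow (-j)
    have hv1 : π (ev val v) = 1 := by rw [hv, map_zpow, hw0, one_zpow]
    have h1 : ev val (w ++ v) ∈ Subgroup.closure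
        ({k | ∃ w, π (ev val w) = 1 ∧ flux w = 0 ∧ ev val w = k} ∪ {ev val w0}) := by
      apply Subgroup.subset_closure
      left
      refine ⟨w ++ v, ?_, ?_, rfl⟩
      · rw [ev_append, map_mul, hk, hv1, mul_one]
      · rw [hadd w v hk hv1, hfv, ← hj, smul_eq_mul]; ring
    have h2 : ev val w0 ∈ Subgroup.closure
        ({k | ∃ w, π (ev val w) = 1 ∧ flux w = 0 ∧ ev val w = k} ∪ {ev val w0}) :=
      Subgroup.subset_closure (Or.inr rfl)
    have h3 : ev val w = ev val (w ++ v) * (ev val w0) ^ j := by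
      rw [ev_append, hv, mul_assoc, ← zpow_add, neg_add_cancel, zpow_zero, mul_one]
    rw [h3]
    exact Subgroup.mul_mem _ h1 (Subgroup.zpow_mem _ h2 j)

/-- **Final pigeonhole, level form.** If for every finite family of trivial words with zero flux
the values lie in a finite set with at most `B` elements, the kernel is finitely generated. -/
theorem ker_fg_of_bound (π : E →* A) (val : L → E) (inv : L → L)
    (hinv : ∀ l, val (inv l) = (val l)⁻¹) (hgen : Subgroup.closure (Set.range val) = ⊤)
    (flux : List L → ℤ)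
    (hadd : ∀ w w', π (ev val w) = 1 → π (ev val w') = 1 → flux (w ++ w') = flux w + flux w')
    (hneg : ∀ w, π (ev val w) = 1 → flux (winv inv w) = - flux w)
    (B : ℕ)
    (hB : ∀ ws : Finset (List L), (∀ w ∈ ws, π (ev val w) = 1 ∧ flux w = 0) →
      ∃ Z : Set E, Z.Finite ∧ Z.ncard ≤ B ∧ ∀ w ∈ ws, ev val w ∈ Z) :
    π.ker.FG := by
  classical
  refine ker_fg_of_finite π val inv hinv hgen flux hadd hneg ?_
  refine finite_of_card_le _ B ?_
  intro F hF
  have hF' : ∀ k : F, ∃ w, π (ev val w) = 1 ∧ flux w = 0 ∧ ev val w = k := fun k => hF k.2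
  choose w hw hf hk using hF'
  obtain ⟨Z, hZ, hZB, hZw⟩ := hB (Finset.univ.image w) (by
    intro v hv
    obtain ⟨k, _, rfl⟩ := Finset.mem_image.1 hv
    exact ⟨hw k, hf k⟩)
  have hsub : (F : Set E) ⊆ Z := by
    intro k hkF
    have := hZw (w ⟨k, hkF⟩) (Finset.mem_image_of_mem _ (Finset.mem_univ _))
    rwa [hk ⟨k, hkF⟩] at this
  have := Set.ncard_le_ncard hsub hZ
  rw [Set.ncard_coe_finset] at this
  omega

end words

/-! ## Lifted letters -/

variable {ι : Type*}

/-- The inverse letter. -/
def Letter.inv (l : Letter ι) : Letter ι := ⟨l.σ, l.E, l.a⁻¹⟩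

theorem wd_winv (w : List (Letter ι)) (D : Set Z2) :
    wd (winv Letter.inv w) (fun _ => D) = (wd w (fun _ => D))⁻¹ := by
  induction w with
  | nil => simp [winv]
  | cons l w ih =>
    have e1 : winv Letter.inv (l :: w) = winv Letter.inv w ++ [l.inv] := by simp [winv]
    rw [e1, wd_append_const, ih, wd_cons l w, mul_inv_rev, X_inv]
    rfl

theorem flux_winv [Finite ι] {w : List (Letter ι)} (hw : wprod w = 1) :
    flux (winv Letter.inv w) = - flux w := by
  unfold flux
  rw [wd_winv, trans_inv (flux_cm hw)]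

/-- **Finite generation of the kernel from flux.** `Good g l` says that `g` is an admissible lift
of the letter `l`. -/
theorem ker_fg_letters [Finite ι] {E : Type*} [Group E] (π : E →* Perm (Z2 × ι))
    (Good : E → Letter ι → Prop) (hinv : ∀ g l, Good g l → Good g⁻¹ l.inv)
    (hπ : ∀ g l, Good g l → π g = X l.σ l.E l.a)
    (hgen : Subgroup.closure {g | ∃ l, Good g l} = ⊤) (B : ℕ)
    (hB : ∀ ws : Finset (List (E × Letter ι)),
      (∀ w ∈ ws, (∀ x ∈ w, Good x.1 x.2) ∧ wprod (w.map Prod.snd) = 1 ∧
        flux (w.map Prod.snd) = 0) →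
      ∃ Z : Set E, Z.Finite ∧ Z.ncard ≤ B ∧ ∀ w ∈ ws, (w.map Prod.fst).prod ∈ Z) :
    π.ker.FG := by
  classical
  let L := {x : E × Letter ι // Good x.1 x.2}
  let val : L → E := fun x => x.1.1
  let inv : L → L := fun x => ⟨(x.1.1⁻¹, x.1.2.inv), hinv _ _ x.2⟩
  let fl : List L → ℤ := fun w => flux (w.map fun x => x.1.2)
  have hev : ∀ w : List L, π (ev val w) = wprod (w.map fun x => x.1.2) := by
    intro w
    rw [ev, map_list_prod, wprod_eq, List.map_map, List.map_map]
    congr 1
    apply List.map_congr_left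
    intro x _
    exact hπ _ _ x.2
  have hw1 : ∀ w : List L, (winv inv w).map (fun x => x.1.2) =
      winv Letter.inv (w.map fun x => x.1.2) := by
    intro w
    simp only [winv, List.map_reverse, List.map_map]
    rfl
  refine ker_fg_of_bound π val inv (fun l => rfl) ?_ fl ?_ ?_ B ?_
  · rw [← hgen]
    congr 1
    ext g
    constructor
    · rintro ⟨x, rfl⟩
      exact ⟨x.1.2, x.2⟩
    · rintro ⟨l, hl⟩
      exact ⟨⟨(g, l), hl⟩, rfl⟩
  · intro w w' hw hw'
    rw [hev] at hw hw'
    simp only [fl, List.map_append]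
    exact flux_append hw hw'
  · intro w hw
    rw [hev] at hw
    simp only [fl, hw1]
    exact flux_winv hw
  · intro ws hws
    obtain ⟨Z, hZ, hZB, hZw⟩ := hB (ws.image fun w => w.map Subtype.val) (by
      intro v hv
      obtain ⟨w, hw, rfl⟩ := Finset.mem_image.1 hv
      obtain ⟨h1, h2⟩ := hws w hw
      rw [hev] at h1
      refine ⟨?_, ?_, ?_⟩
      · intro x hx
        obtain ⟨y, _, rfl⟩ := List.mem_map.1 hx
        exact y.2
      · rw [List.map_map]; exact h1
      · rw [List.map_map]; exact h2)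
    refine ⟨Z, hZ, hZB, ?_⟩
    intro w hw
    have := hZw _ (Finset.mem_image_of_mem _ hw)
    rw [List.map_map] at this
    exact this

end Vale.Agent.P196.H513
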