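import Vale.Agent.P196.H513.CutMain
import Vale.Agent.P196.H700.Assembly
import Vale.Agent.P196.H783.Final
import Vale.Agent.P196.H964.AMFinal

/-!
# P196: the final theorem modulo the four open concrete statements
-/

namespace Vale.Agent.P196.H513

open Vale.Agent.P196.S0 Vale.Agent.P196.Cut Vale.Agent.P196.H700

/-- The final theorem from the four concrete statements. -/
theorem final_mod (hDec : StmtDec (Fin 12)) (hFact : StmtFact) (hB : StmtB) (hC : StmtC) :
    ∃ (G : Type) (_ : Group G), Infinite G ∧ Group.IsFinitelyPresented G ∧ IsSimpleGroup G ∧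
      IsAmenable G :=
  H783.final_of (ι := Fin 12) (by simp)
    (fun π hs hk hp => H700.ker_fg (by simp) Wang.localSets.univ
      (cutInput_of' (by simp) hDec hFact hB hC) π hs hk hp)
    (H964.isAmenable_grp_wang (Fin 12))

end Vale.Agent.P196.H513
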