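import Vale.Agent.P196.H700.Input
import Vale.Agent.P196.Cut.FactDefs
import Vale.Agent.P196.Tile.Inst
import Vale.Agent.P196.H366.Conv

/-!
# P196, concrete assembly: the levels and the exact output wanted from S-DEC
-/

noncomputable section

namespace Vale.Agent.P196.H513

open Equiv Vale.Agent.P196.S0 Vale.Agent.P196.Cut Vale.Agent.P196.H700

/-- Half of the scale of level `m`: the cells have side `2 * MM m = 2 ^ (m + 5)`, the strips have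
width `2 ^ m = MM m / 16`. -/
def MM (m : ℕ) : ℤ := 2 ^ (m + 4)

theorem MM_pos (m : ℕ) : 0 < MM m := by unfold MM; positivity

theorem two_MM (m : ℕ) : 2 * MM m = 2 ^ (m + 5) := by unfold MM; ring

theorem MM_eq (m : ℕ) : MM m = 16 * 2 ^ m := by unfold MM; ring

variable (ι : Type) [Fintype ι] [DecidableEq ι]

/-- The groups of level `m`. -/
def lvl (a b : ι) (m : ℕ) : Lvl (Perm (Z2 × ι)) where
  V := (Vsys (MM_pos m) Wang.tySys).G ι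
  R := (Rsys (MM_pos m) Wang.tySys).G ι
  F := (Fsys (MM_pos m) Wang.tySys).G ι
  Z := (Zsys (MM_pos m) Wang.tySys).G ι
  S := (Ssys (MM_pos m) Wang.tySys).G ι
  Q := (Qsys (MM_pos m) Wang.tySys).G ι
  RS := (RSsys (MM_pos m) (2 ^ m) Wang.tySys).G ι
  Vo := (VOsys (MM_pos m) (2 ^ m) Wang.tySys).G ι
  sigV := Sig (MM m) Wang.tySys a b ∩ ((VOsys (MM_pos m) (2 ^ m) Wang.tySys).G ι : Set _)
  sigR := Sig (MM m) Wang.tySys a b ∩ ((Rsys (MM_pos m) Wang.tySys).G ι : Set _)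
  sigF := Sig (MM m) Wang.tySys a b ∩ ((Fsys (MM_pos m) Wang.tySys).G ι : Set _)

/-- **Output of S-DEC.** -/
def StmtDec : Prop :=
  ∀ w : List (Letter ι), (∀ l ∈ w, l.E ∈ Wang.LS ∧ l.a ∈ alternatingGroup ι) → wprod w = 1 →
    ∃ m0 : ℕ, ∀ m, m0 ≤ m → ∃ DV DR DF : ℕ → Set Z2,
      (∀ i, Disjoint (DV i) (DR i) ∧ Disjoint (DV i) (DF i) ∧ Disjoint (DR i) (DF i) ∧
        DV i ∪ DR i ∪ DF i = Set.univ) ∧
      (∀ i (hi : i < w.length), ∀ a ∈ alternatingGroup ι,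
        X w[i].σ (w[i].E ∩ DV i) a ∈ (Vsys (MM_pos m) Wang.tySys).G ι ∧
          X w[i].σ (w[i].E ∩ DR i) a ∈ (RSsys (MM_pos m) (2 ^ m) Wang.tySys).G ι ∧
          X w[i].σ (w[i].E ∩ DF i) a ∈ (Fsys (MM_pos m) Wang.tySys).G ι) ∧
      (∀ i k (hi : i < w.length) (hk : k < w.length), k ≤ i →
        ∀ a ∈ alternatingGroup ι, ∀ c ∈ alternatingGroup ι,
        Commute (X w[i].σ (w[i].E ∩ DV i) a) (X w[k].σ (w[k].E ∩ DR k) c) ∧
        Commute (X w[i].σ (w[i].E ∩ DV i) a) (X w[k].σ (w[k].E ∩ DF k) c) ∧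
        Commute (X w[i].σ (w[i].E ∩ DR i) a) (X w[k].σ (w[k].E ∩ DF k) c)) ∧
      (∃ r0 r1 d : ℤ, Tri (MM_pos m) Wang.tySys (2 ^ m) r0 r1 d (wd w DV) (wd w DR) (wd w DF)) ∧
      ∃ r C : ℤ, 0 ≤ r ∧ Bd r w ∧ 2 * r * w.length + r ≤ C ∧ 5 * C ≤ MM m ∧
        (∀ i, H366.disc (5 * C) ⊆ DV i) ∧
        ∀ i, ∀ c ∈ DV i, c ∈ H366.disc (MM m + C) → c ∈ H366.disc (MM m - 3 * C - 1)

end Vale.Agent.P196.H513
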