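import Vale.Agent.P196.H513.DecDef

/-!
# P196, concrete assembly: `CutInput` from the concrete statements
-/

noncomputable section

namespace Vale.Agent.P196.H513

open Equiv Vale.Agent.P196.S0 Vale.Agent.P196.Cut Vale.Agent.P196.H700

theorem IsAltProd.mono {A : Type*} [Group A] {b b' : ℕ} (h : b ≤ b') {P : Subgroup A}
    (hP : IsAltProd b P) : IsAltProd b' P := by
  obtain ⟨T, i1, Mt, i2, i3, j, h1, h2⟩ := hP
  exact ⟨T, i1, Mt, i2, i3, j, h1.trans h, h2⟩

variable (ι : Type) [Fintype ι] [DecidableEq ι]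

/-- (g2) the groups of cell systems are perfect -/
def StmtPerf : Prop := ∀ (N : ℤ) (J Θ : Type) [Finite J] [Finite Θ] (C : CS N J Θ),
  ⁅C.G ι, C.G ι⁆ = C.G ι

/-- (g3) the groups of cell systems are products of alternating groups -/
def StmtAlt : Prop := ∀ (N : ℤ) (J Θ : Type) [Fintype J] [Fintype Θ] (C : CS N J Θ),
  IsAltProd (Fintype.card J * Fintype.card Θ) (C.G ι)

/-- the bound -/
def bb : ℕ := Fintype.card Unit * Fintype.card Wang.Tile +
  Fintype.card Bool * Fintype.card (Wang.Tile.WCol ⊕ Wang.Tile.WCol) +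
  Fintype.card Unit * Fintype.card (Bool × Bool) + 2 ^ (8 * Nat.card Wang.Tile)

variable {ι}

theorem lvl_ok (h5 : 5 ≤ Fintype.card ι) (hB : StmtB) (hC : StmtC) (hP : StmtPerf ι)
    (hA : StmtAlt ι) {a b : ι} (hab : a ≠ b) (m : ℕ) :
    (lvl ι a b m).Ok (grp ι Wang.LS) bb := by
  have B := hB Wang.Tile Wang.Tile.WCol Wang.Tile.WCol (Bool × Bool) ι (MM m) (MM_pos m) (2 ^ m) Wang.tySys
  have C := hC Wang.Tile Wang.Tile.WCol Wang.Tile.WCol (Bool × Bool) ι (MM m) (MM_pos m) Wang.tySys a b hab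
  have card : ∀ P : Set (Perm (Z2 × ι)), (Sig (ι := ι) (MM m) Wang.tySys a b ∩ P).ncard ≤ bb := by
    intro P
    refine (Set.ncard_le_ncard Set.inter_subset_left C.1).trans (C.2.1.trans ?_)
    unfold bb
    omega
  exact
    { V_le := Wang.Vsys_G_le (MM_pos m) (m + 5) (two_MM m) ι h5
      R_le := Wang.Rsys_G_le (MM_pos m) (m + 5) (two_MM m) ι h5
      F_le := Wang.Fsys_G_le (MM_pos m) (m + 5) (two_MM m) ι h5
      Z_V := B.1
      Z_F := B.2.1
      S_V := B.2.2.1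
      S_R := B.2.2.2.1
      Q_R := B.2.2.2.2.1
      Q_F := B.2.2.2.2.2.1
      RS_R := B.2.2.2.2.2.2.1
      Vo_V := B.2.2.2.2.2.2.2.1
      comm := fun x hx y hy => (B.2.2.2.2.2.2.2.2 y hy x hx).symm
      V_perf := hP _ _ _ _
      R_perf := hP _ _ _ _
      F_perf := hP _ _ _ _
      Z_perf := hP _ _ _ _
      S_perf := hP _ _ _ _
      Q_perf := hP _ _ _ _
      RS_perf := hP _ _ _ _
      Vo_perf := hP _ _ _ _
      V_alt := IsAltProd.mono (by unfold bb; omega) (hA _ _ _ (Vsys (MM_pos m) Wang.tySys))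
      R_alt := IsAltProd.mono (by unfold bb; omega) (hA _ _ _ (Rsys (MM_pos m) Wang.tySys))
      F_alt := IsAltProd.mono (by unfold bb; omega) (hA _ _ _ (Fsys (MM_pos m) Wang.tySys))
      sigV_sub := Set.inter_subset_right
      sigR_sub := Set.inter_subset_right
      sigF_sub := Set.inter_subset_right
      sigV_fin := C.1.subset Set.inter_subset_left
      sigR_fin := C.1.subset Set.inter_subset_left
      sigF_fin := C.1.subset Set.inter_subset_left
      sigV_card := card _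
      sigR_card := card _
      sigF_card := card _ }

theorem half_iff {M : ℤ} (hM : 0 < M) (x : ℤ) :
    (fI M x = 0 ∧ hf M x = false) ↔ (0 ≤ x ∧ x < M) := by
  have h1 := Int.emod_add_mul_ediv x (2 * M)
  have h2 := Int.emod_nonneg x (show (2 * M) ≠ 0 by omega)
  have h3 := Int.emod_lt_of_pos x (show 0 < 2 * M by omega)
  simp only [fI, hf, decide_eq_false_iff_not, not_le]
  constructor
  · rintro ⟨h4, h5⟩
    rw [h4] at h1
    omega
  · rintro ⟨h4, h5⟩
    rw [Int.emod_eq_of_lt h4 (by omega)]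
    exact ⟨Int.ediv_eq_zero_of_lt h4 (by omega), h5⟩

theorem cell_NE {M : ℤ} (hM : 0 < M) {T Th Tv Tf : Type} (Y : TySys T Th Tv Tf) :
    (Zsys hM Y).cell ι (0, 0) (false, false) = H366.qNE ι M := by
  ext z
  rw [CS.mem_cell, H366.mem_qNE]
  have e1 : (Zsys hM Y).anch z.1 = (fI M z.1.1, fI M z.1.2) := rfl
  have e2 : (Zsys hM Y).lab z.1 = some (hf M z.1.1, hf M z.1.2) := rfl
  have h1 := half_iff hM z.1.1
  have h2 := half_iff hM z.1.2
  rw [e1, e2]
  simp only [H366.isNE, Prod.mk.injEq, Option.some.injEq]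
  tauto

theorem crH_NE {M : ℤ} (hM : 0 < M) {T Th Tv Tf : Type} (Y : TySys T Th Tv Tf)
    (g : Perm (Z2 × ι)) : crH M ((Zsys hM Y).cell ι (0, 0) (false, false)) g =
      ∑ᶠ z : Z2 × ι, (if H366.isNE M z.1 then H366.sV M (g z).1 - H366.sV M z.1 else 0) := by
  rw [cell_NE hM Y, H366.card_cross]
  rfl

/-- **Concrete assembly.** -/
theorem cutInput_of (h5 : 5 ≤ Fintype.card ι) (hDec : StmtDec ι) (hFact : StmtFact)
    (hB : StmtB) (hC : StmtC) (hP : StmtPerf ι) (hA : StmtAlt ι) : CutInput ι Wang.LS := by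
  obtain ⟨a, b, hab⟩ : ∃ a b : ι, a ≠ b := by
    have : Nontrivial ι := Fintype.one_lt_card_iff_nontrivial.1 (by omega)
    exact exists_pair_ne ι
  refine ⟨bb, lvl ι a b, fun m => lvl_ok h5 hB hC hP hA hab m, ?_⟩
  intro w hw hw1 hflux
  obtain ⟨m0, hm0⟩ := hDec w hw hw1
  refine ⟨m0, fun m hm => ?_⟩
  obtain ⟨DV, DR, DF, hpart, hd1, hd2, ⟨r0, r1, d, tri⟩, r, C, hr, hBd, hC1, hC2, hs, hgap⟩ :=
    hm0 m hm
  have hcr : crH (MM m) ((Zsys (MM_pos m) Wang.tySys).cell ι (0, 0) (false, false)) (wd w DV)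
      = 0 := by
    rw [crH_NE, H366.cross_NE hBd hr hw1 (MM m) C hC1 hC2 DV hs hgap, hflux, neg_zero]
  obtain ⟨κ, hκ, u0, hu0, q, hq, sV, hsV, sR, hsR, sF, hsF, hV', hR', hF', e1, e2, e3⟩ :=
    hFact _ _ _ _ ι (MM m) (MM_pos m) (2 ^ m) r0 r1 d Wang.tySys _ _ _ a b hab tri hcr
  exact ⟨DV, DR, DF, hpart, hd1, hd2, κ, hκ, u0, hu0, q, hq, sV, ⟨hsV, hV'⟩, sR, ⟨hsR, hR'⟩, sF,
    ⟨hsF, hF'⟩, e1, e2, e3⟩

end Vale.Agent.P196.H513
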