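import Vale.Agent.P196.H513.CutInput
import Vale.Agent.P196.Cut.CSGBound

/-!
# P196, concrete assembly, final form (modulo the open statements)
-/

noncomputable section

namespace Vale.Agent.P196.H513

open Equiv Vale.Agent.P196.S0 Vale.Agent.P196.Cut Vale.Agent.P196.H700

variable {ι : Type} [Fintype ι] [DecidableEq ι]

theorem stmtPerf (h5 : 5 ≤ Fintype.card ι) : StmtPerf ι :=
  fun _ _ _ _ _ C => CS.G_perfect C h5

theorem stmtAlt (h8 : 8 ≤ Fintype.card ι) : StmtAlt ι := fun _ _ _ _ _ C =>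
  CS.isAltProd C h8 (by rw [Nat.card_eq_fintype_card, Nat.card_eq_fintype_card])

theorem cutInput_of' (h8 : 8 ≤ Fintype.card ι) (hDec : StmtDec ι) (hFact : StmtFact)
    (hB : StmtB) (hC : StmtC) : CutInput ι Wang.LS :=
  cutInput_of (by omega) hDec hFact hB hC (stmtPerf (by omega)) (stmtAlt h8)

end Vale.Agent.P196.H513
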