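import Vale.Agent.P196.H513.Flux

/-!
# P196: reordering of a cut word
-/

namespace Vale.Agent.P196.H513

open Equiv Vale.Agent.P196.S0

variable {ι : Type*}

theorem X_union {σ : ι → Z2} {E F : Set Z2} (h : Disjoint E F) (a : Perm ι) :
    X σ (E ∪ F) a = X σ E a * X σ F a := by
  simp only [X, eP_union h]
  group

theorem X_univ3 {σ : ι → Z2} {E D1 D2 D3 : Set Z2} (h12 : Disjoint D1 D2) (h13 : Disjoint D1 D3)
    (h23 : Disjoint D2 D3) (hu : D1 ∪ D2 ∪ D3 = Set.univ) (a : Perm ι) :
    X σ E a = X σ (E ∩ D1) a * X σ (E ∩ D2) a * X σ (E ∩ D3) a := by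
  have e : E = (E ∩ D1) ∪ (E ∩ D2) ∪ (E ∩ D3) := by
    rw [← Set.inter_union_distrib_left, ← Set.inter_union_distrib_left, hu, Set.inter_univ]
  have d1 : Disjoint (E ∩ D1) (E ∩ D2) :=
    h12.mono Set.inter_subset_right Set.inter_subset_right
  have d2 : Disjoint ((E ∩ D1) ∪ (E ∩ D2)) (E ∩ D3) := by
    rw [Set.disjoint_union_left]
    exact ⟨h13.mono Set.inter_subset_right Set.inter_subset_right,
      h23.mono Set.inter_subset_right Set.inter_subset_right⟩
  conv_lhs => rw [e]
  rw [X_union d2, X_union d1]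

theorem commute_wd {g : Perm (Z2 × ι)} {w : List (Letter ι)} {D : ℕ → Set Z2}
    (h : ∀ i (hi : i < w.length), Commute g (X w[i].σ (w[i].E ∩ D i) w[i].a)) :
    Commute g (wd w D) := by
  induction w generalizing D with
  | nil => exact Commute.one_right g
  | cons l w ih =>
    rw [wd_cons]
    refine Commute.mul_right ?_ ?_
    · exact h 0 (by simp)
    · refine ih ?_
      intro i hi
      exact h (i + 1) (by simpa using hi)

/-- **Reordering**: the product of a word is the product of its three restricted words. -/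
theorem wprod_eq_three {w : List (Letter ι)} {DV DR DF : ℕ → Set Z2}
    (hpart : ∀ i, Disjoint (DV i) (DR i) ∧ Disjoint (DV i) (DF i) ∧ Disjoint (DR i) (DF i) ∧
        DV i ∪ DR i ∪ DF i = Set.univ)
    (hcomm : ∀ i k (hi : i < w.length) (hk : k < w.length), k ≤ i →
        Commute (X w[i].σ (w[i].E ∩ DV i) w[i].a) (X w[k].σ (w[k].E ∩ DR k) w[k].a) ∧
        Commute (X w[i].σ (w[i].E ∩ DV i) w[i].a) (X w[k].σ (w[k].E ∩ DF k) w[k].a) ∧
        Commute (X w[i].σ (w[i].E ∩ DR i) w[i].a) (X w[k].σ (w[k].E ∩ DF k) w[k].a)) :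
    wprod w = wd w DV * wd w DR * wd w DF := by
  induction w generalizing DV DR DF with
  | nil => simp [wprod]
  | cons l w ih =>
    have ih' := ih (DV := fun i => DV (i + 1)) (DR := fun i => DR (i + 1))
      (DF := fun i => DF (i + 1)) (fun i => hpart (i + 1)) (by
        intro i k hi hk hki
        exact hcomm (i + 1) (k + 1) (by simpa using hi) (by simpa using hk) (by omega))
    have e0 : wprod (l :: w) = X l.σ l.E l.a * wprod w := by
      unfold wprod
      rw [wd_cons, Set.inter_univ]
    obtain ⟨p1, p2, p3, p4⟩ := hpart 0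
    rw [e0, ih', X_univ3 p1 p2 p3 p4, wd_cons, wd_cons, wd_cons]
    have c1 : Commute (X l.σ (l.E ∩ DF 0) l.a) (wd w fun i => DV (i + 1)) := by
      refine commute_wd ?_
      intro i hi
      exact ((hcomm (i + 1) 0 (by simpa using hi) (by simp) (by omega)).2.1).symm
    have c2 : Commute (X l.σ (l.E ∩ DR 0) l.a) (wd w fun i => DV (i + 1)) := by
      refine commute_wd ?_
      intro i hi
      exact ((hcomm (i + 1) 0 (by simpa using hi) (by simp) (by omega)).1).symm
    have c3 : Commute (X l.σ (l.E ∩ DF 0) l.a) (wd w fun i => DR (i + 1)) := by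
      refine commute_wd ?_
      intro i hi
      exact ((hcomm (i + 1) 0 (by simpa using hi) (by simp) (by omega)).2.2).symm
    generalize X l.σ (l.E ∩ DV 0) l.a = v at *
    generalize X l.σ (l.E ∩ DR 0) l.a = e at *
    generalize X l.σ (l.E ∩ DF 0) l.a = f at *
    generalize (wd w fun i => DV (i + 1)) = V at *
    generalize (wd w fun i => DR (i + 1)) = R at *
    generalize (wd w fun i => DF (i + 1)) = F at *
    calc v * e * f * (V * R * F) = v * e * (f * V) * R * F := by group
      _ = v * e * (V * f) * R * F := by rw [c1.eq]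
      _ = v * (e * V) * (f * R) * F := by group
      _ = v * (V * e) * (R * f) * F := by rw [c2.eq, c3.eq]
      _ = v * V * (e * R) * (f * F) := by group

end Vale.Agent.P196.H513
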